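import Vale.Agent.P277.A.Dim
import Mathlib.Analysis.Calculus.InverseFunctionTheorem.ContDiff
import Mathlib.Analysis.Calculus.FDeriv.Analytic
import Mathlib.Analysis.Calculus.MeanValue

/-!
# P277: local biholomorphisms and regular charts
-/

open scoped Manifold ContDiff Topology
open Vale.Agent.P272.K Vale.Agent.P285.H281.FD Set Filter

noncomputable section

namespace Vale.Agent.P277.H73

/-- Inverse function theorem for analytic maps of `ℂ^m`. -/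
theorem exists_localInv {m : ℕ} {F : Cm m → Cm m} {p : Cm m} (hF : AnalyticAt ℂ F p)
    (hD : Function.Injective (fderiv ℂ F p)) :
    ∃ e : OpenPartialHomeomorph (Cm m) (Cm m), (⇑e = F) ∧ p ∈ e.source ∧
      (∀ q ∈ e.source, AnalyticAt ℂ F q) ∧ ∀ z ∈ e.target, AnalyticAt ℂ e.symm z := by
  -- the derivative as an equivalence
  let L : Cm m ≃ₗ[ℂ] Cm m := LinearEquiv.ofInjectiveEndo (fderiv ℂ F p : Cm m →ₗ[ℂ] Cm m) hD
  let i : Cm m ≃L[ℂ] Cm m := L.toContinuousLinearEquiv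
  have hi : (i : Cm m →L[ℂ] Cm m) = fderiv ℂ F p := by
    ext v
    rfl
  have hcd : ContDiffAt ℂ 1 F p := hF.contDiffAt
  have hfd : HasFDerivAt F (i : Cm m →L[ℂ] Cm m) p := by
    rw [hi]
    exact hF.differentiableAt.hasFDerivAt
  let e₀ := hcd.toOpenPartialHomeomorph F hfd one_ne_zero
  have he₀ : (⇑e₀ : Cm m → Cm m) = F := rfl
  have hp : p ∈ e₀.source := hcd.mem_toOpenPartialHomeomorph_source hfd one_ne_zero
  -- the good open set
  have h1 : ∀ᶠ q in 𝓝 p, AnalyticAt ℂ F q := hF.eventually_analyticAt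
  have h2 : ∀ᶠ q in 𝓝 p, ∃ j : Cm m ≃L[ℂ] Cm m, (j : Cm m →L[ℂ] Cm m) = fderiv ℂ F q := by
    have h3 : {A : Cm m →L[ℂ] Cm m | ∃ j : Cm m ≃L[ℂ] Cm m, (j : Cm m →L[ℂ] Cm m) = A} ∈
        𝓝 (fderiv ℂ F p) := by
      have := i.nhds
      rw [hi] at this
      exact this
    exact (hF.fderiv.continuousAt) h3
  obtain ⟨O, hO, hOo, hpO⟩ := eventually_nhds_iff.1 (h1.and h2)
  refine ⟨e₀.restrOpen O hOo, ?_, ?_, ?_, ?_⟩
  · exact he₀
  · simp only [OpenPartialHomeomorph.restrOpen_source]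
    exact ⟨hp, hpO⟩
  · intro q hq
    simp only [OpenPartialHomeomorph.restrOpen_source] at hq
    exact (hO q hq.2).1
  · intro z hz
    have hz' := (e₀.restrOpen O hOo).map_target hz
    simp only [OpenPartialHomeomorph.restrOpen_source] at hz'
    obtain ⟨j, hj⟩ := (hO _ hz'.2).2
    exact (e₀.restrOpen O hOo).analyticAt_symm (i := j) hz (hO _ hz'.2).1 hj.symm

/-- The inverse of a regular chart. -/
theorem exists_chartInv {X : CSp} {n : ℕ} {V : Set X.pt} {Ω : Set (Cm n)} {h : Fin 0 → Cm n → ℂ}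
    {φ : X.pt → Cm n} (hM : IsModel X.Hol V Ω h φ) (hV : V.Nonempty) :
    ∃ ψ : Cm n → X.pt, (∀ z ∈ Ω, ψ z ∈ V ∧ φ (ψ z) = z) ∧ (∀ x ∈ V, φ x ∈ Ω ∧ ψ (φ x) = x) ∧
      (∀ z ∈ Ω, HolAt X ψ z) ∧
      ∀ z ∈ Ω, ∀ f : X.pt → ℂ, X.Hol f (ψ z) ↔ AnalyticAt ℂ (f ∘ ψ) z := by
  classical
  obtain ⟨x₀, hx₀⟩ := hV
  have himg : ∀ z ∈ Ω, ∃ x ∈ V, φ x = z := by
    intro z hz
    have : z ∈ φ '' V := by rw [hM.image]; exact ⟨hz, fun i => i.elim0⟩
    exact this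
  let ψ : Cm n → X.pt := fun z => if hz : z ∈ Ω then (himg z hz).choose else x₀
  have hψ : ∀ z ∈ Ω, ψ z ∈ V ∧ φ (ψ z) = z := by
    intro z hz
    simp only [ψ, dif_pos hz]
    exact (himg z hz).choose_spec
  have hφ : ∀ x ∈ V, φ x ∈ Ω := by
    intro x hx
    have : φ x ∈ φ '' V := ⟨x, hx, rfl⟩
    rw [hM.image] at this
    exact this.1
  have hψφ : ∀ x ∈ V, ψ (φ x) = x := fun x hx =>
    hM.injOn (hψ _ (hφ x hx)).1 hx (hψ _ (hφ x hx)).2
  have hhol : ∀ z ∈ Ω, HolAt X ψ z := by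
    intro z hz
    refine holAt_of_coord hM.isCoord ?_ fun a => ?_
    · filter_upwards [hM.isOpen'.mem_nhds hz] with w hw using (hψ w hw).1
    · have : (fun q : Cm n => q a) =ᶠ[𝓝 z] fun q => φ (ψ q) a := by
        filter_upwards [hM.isOpen'.mem_nhds hz] with w hw
        rw [(hψ w hw).2]
      exact ((ContinuousLinearMap.proj (R := ℂ) (φ := fun _ : Fin n => ℂ) a).analyticAt z).congr this
  refine ⟨ψ, hψ, fun x hx => ⟨hφ x hx, hψφ x hx⟩, hhol, fun z hz f => ⟨fun hf => (hhol z hz).2 f hf,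
    fun hf => ?_⟩⟩
  refine (hM.hol _ (hψ z hz).1 f).2 ⟨f ∘ ψ, ?_, ?_⟩
  · rw [(hψ z hz).2]; exact hf
  · filter_upwards [hM.isOpen.mem_nhds (hψ z hz).1] with x hx
    simp only [Function.comp_apply, hψφ x hx]

end Vale.Agent.P277.H73
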