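import Vale.Agent.P277.Stmts2
import Vale.Agent.P277.H73.IFT
import Vale.Agent.P277.A.Dim
import Mathlib.Analysis.Analytic.Uniqueness

/-!
# P277, package TA: a bidisc through a regular point in a two-dimensional analytic set
-/

open scoped Manifold ContDiff Topology
open Vale.Agent.P272.K Vale.Agent.P285.H281.FD Set Filter

noncomputable section

namespace Vale.Agent.P277.H73

variable {X : CSp}

/-- images of hypersurfaces in a ball -/
theorem dimLe_image_zeros (hB1 : StB1) {d : ℕ} {c : Cm (d + 1)} {r : ℝ} {g : Cm (d + 1) → X.pt}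
    (hg : ∀ p ∈ Metric.ball c r, HolAt X g p) {F : Cm (d + 1) → ℂ}
    (hF : ∀ p ∈ Metric.ball c r, AnalyticAt ℂ F p) (hne : ∃ p ∈ Metric.ball c r, F p ≠ 0) :
    DimLe X d (g '' {p | p ∈ Metric.ball c r ∧ F p = 0}) := by
  have hnz : ∀ z ∈ Metric.ball c r, ¬ F =ᶠ[𝓝 z] 0 := by
    intro z hz hcon
    obtain ⟨p, hp, hFp⟩ := hne
    have hFan : AnalyticOnNhd ℂ F (Metric.ball c r) := hF
    exact hFp (hFan.eqOn_of_preconnected_of_eventuallyEq (g := 0)
        (fun _ _ => analyticAt_const) (convex_ball _ _).isPreconnected hz hcon hp)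
  obtain ⟨W, G, hW, hG, hcov⟩ := hB1 d (Metric.ball c r) F Metric.isOpen_ball hF hnz
  refine ⟨W, fun k => g ∘ G k, hW, fun k p hp => (hg _ (hG k p hp).2).comp (hG k p hp).1, ?_⟩
  rintro x ⟨p, hp, rfl⟩
  obtain ⟨k, q, hq, rfl⟩ := mem_iUnion.1 (hcov hp)
  exact mem_iUnion.2 ⟨k, q, hq, rfl⟩

/-- dimension is local on the parameter space -/
theorem dimLe_image_of_local [Nonempty X.pt] {m d : ℕ} {g : Cm m → X.pt} {T : Set (Cm m)}
    (h : ∀ p ∈ T, ∃ N : Set (Cm m), IsOpen N ∧ p ∈ N ∧ DimLe X d (g '' (N ∩ T))) :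
    DimLe X d (g '' T) := by
  choose! N hN hpN hd using h
  obtain ⟨t, htT, htc, ht⟩ := TopologicalSpace.countable_cover_nhdsWithin
    (f := N) (s := T) fun p hp => mem_nhdsWithin_of_mem_nhds ((hN p hp).mem_nhds (hpN p hp))
  refine (dimLe_biUnion htc fun p hp => hd p (htT hp)).mono ?_
  rintro _ ⟨q, hq, rfl⟩
  obtain ⟨p, hp, hqp⟩ := mem_iUnion₂.1 (ht hq)
  exact mem_iUnion₂.2 ⟨p, hp, q, ⟨hqp, hq⟩, rfl⟩

theorem analyticAt_apply {m n : ℕ} {G : Cm m → Cm n} {p : Cm m} (hG : AnalyticAt ℂ G p)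
    (a : Fin n) : AnalyticAt ℂ (fun q => G q a) p :=
  ((ContinuousLinearMap.proj (R := ℂ) (φ := fun _ : Fin n => ℂ) a).analyticAt (G p)).comp hG

theorem fderiv_apply' {m n : ℕ} {G : Cm m → Cm n} {p : Cm m} (hG : DifferentiableAt ℂ G p)
    (a : Fin n) (v : Cm m) : fderiv ℂ (fun q => G q a) p v = fderiv ℂ G p v a := by
  rw [fderiv_apply hG]
  rfl

theorem fderiv_two {f : Cm 2 → ℂ} {p : Cm 2} (v : Cm 2) :
    fderiv ℂ f p v = v 0 * fderiv ℂ f p (Pi.single 0 1) + v 1 * fderiv ℂ f p (Pi.single 1 1) := by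
  have : v = v 0 • (Pi.single 0 1 : Cm 2) + v 1 • (Pi.single 1 1 : Cm 2) := by
    ext i
    fin_cases i <;> simp
  conv_lhs => rw [this]
  rw [map_add, map_smul, map_smul, smul_eq_mul, smul_eq_mul]

/-- The straightening of a map of rank one of two variables near a point. -/
theorem rank_one_local [Nonempty X.pt] {n : ℕ} {V : Set X.pt} {φ : X.pt → Cm n} (hφ : InjOn φ V)
    {B : Set (Cm 2)} (hB : IsOpen B) {g : Cm 2 → X.pt} (hg : ∀ p ∈ B, HolAt X g p)
    (hgV : ∀ p ∈ B, g p ∈ V) (hG : ∀ p ∈ B, AnalyticAt ℂ (fun q => φ (g q)) p)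
    (hrk : ∀ p ∈ B, ∃ v : Cm 2, v ≠ 0 ∧ fderiv ℂ (fun q => φ (g q)) p v = 0)
    {a : Fin n} {i : Fin 2} {p : Cm 2} (hp : p ∈ B)
    (hai : fderiv ℂ (fun q => φ (g q) a) p (Pi.single i 1) ≠ 0) :
    ∃ N : Set (Cm 2), IsOpen N ∧ p ∈ N ∧ N ⊆ B ∧ DimLe X 1 (g '' N) := by
  set G : Cm 2 → Cm n := fun q => φ (g q) with hGdef
  have hGa : ∀ q ∈ B, ∀ b, AnalyticAt ℂ (fun q => G q b) q := fun q hq b =>
    analyticAt_apply (hG q hq) b
  -- the coordinate change
  obtain ⟨j, hj⟩ : ∃ j : Fin 2, ∀ v : Cm 2, v = v i • (Pi.single i 1 : Cm 2) + v j • Pi.single j 1 := by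
    fin_cases i
    · refine ⟨1, fun v => ?_⟩
      ext k; fin_cases k <;> simp
    · refine ⟨0, fun v => ?_⟩
      ext k; fin_cases k <;> simp
  let Ψ : Cm 2 → Cm 2 := fun q => ![G q a, q j]
  have hΨan : ∀ q ∈ B, AnalyticAt ℂ Ψ q := by
    intro q hq
    refine AnalyticAt.pi fun k => ?_
    fin_cases k
    · exact hGa q hq a
    · exact (ContinuousLinearMap.proj (R := ℂ) (φ := fun _ : Fin 2 => ℂ) j).analyticAt q
  have hΨd : ∀ q ∈ B, ∀ v, fderiv ℂ Ψ q v = ![fderiv ℂ (fun q => G q a) q v, v j] := by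
    intro q hq v
    ext k
    rw [← fderiv_apply' (hΨan q hq).differentiableAt]
    fin_cases k
    · rfl
    · show fderiv ℂ (fun q : Cm 2 => q j) q v = v j
      exact congrArg (fun f : Cm 2 →L[ℂ] ℂ => f v)
        ((ContinuousLinearMap.proj (R := ℂ) (φ := fun _ : Fin 2 => ℂ) j).fderiv (x := q))
  have hinj : Function.Injective (fderiv ℂ Ψ p) := by
    rw [injective_iff_map_eq_zero]
    intro v hv
    rw [hΨd p hp v] at hv
    have h0 : fderiv ℂ (fun q => G q a) p v = 0 := congrFun hv 0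
    have h1 : v j = 0 := congrFun hv 1
    rw [hj v, h1, zero_smul, add_zero, map_smul, smul_eq_mul] at h0
    have h2 : v i = 0 := (mul_eq_zero.1 h0).resolve_right hai
    rw [hj v, h1, h2, zero_smul, zero_smul, add_zero]
  obtain ⟨e, he, hpe, -, hesymm⟩ := exists_localInv (hΨan p hp) hinj
  -- the open set where the partial derivative does not vanish
  have hcont : ContinuousOn (fun q => fderiv ℂ (fun q => G q a) q (Pi.single i 1)) B := by
    intro q hq
    have h1 : ContinuousAt (fderiv ℂ (fun q => G q a)) q := (hGa q hq a).fderiv.continuousAt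
    exact (h1.clm_apply continuousAt_const).continuousWithinAt
  have hB' : IsOpen (B ∩ (fun q => fderiv ℂ (fun q => G q a) q (Pi.single i 1)) ⁻¹' {0}ᶜ) :=
    hcont.isOpen_inter_preimage hB isOpen_compl_singleton
  set B' := B ∩ (fun q => fderiv ℂ (fun q => G q a) q (Pi.single i 1)) ⁻¹' {0}ᶜ with hB'def
  -- a polydisc
  have hD : e.target ∩ e.symm ⁻¹' B' ∈ 𝓝 (Ψ p) := by
    refine (e.isOpen_inter_preimage_symm hB').mem_nhds ⟨?_, ?_⟩
    · have := e.map_source hpe
      rwa [he] at this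
    · show e.symm (Ψ p) ∈ B'
      rw [← he, e.left_inv hpe]
      exact ⟨hp, hai⟩
  obtain ⟨ρ, hρ, hρD⟩ := Metric.mem_nhds_iff.1 hD
  set z₀ := Ψ p with hz₀
  have hbase : ∀ z ∈ Metric.ball z₀ ρ, e.symm z ∈ B ∧ Ψ (e.symm z) = z ∧
      AnalyticAt ℂ e.symm z ∧ fderiv ℂ (fun q => G q a) (e.symm z) (Pi.single i 1) ≠ 0 := by
    intro z hz
    have h1 := hρD hz
    refine ⟨h1.2.1, ?_, hesymm z h1.1, h1.2.2⟩
    have := e.right_inv h1.1
    rwa [he] at this
  -- derivatives along the second variable vanish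
  have hder : ∀ z ∈ Metric.ball z₀ ρ, ∀ b,
      fderiv ℂ (fun z => G (e.symm z) b) z (Pi.single 1 1) = 0 := by
    intro z hz b
    obtain ⟨h1, h2, h3, h4⟩ := hbase z hz
    set v := fderiv ℂ e.symm z (Pi.single 1 1) with hv
    have hcomp : ∀ b, fderiv ℂ (fun z => G (e.symm z) b) z (Pi.single 1 1) =
        fderiv ℂ (fun q => G q b) (e.symm z) v := by
      intro b
      have : fderiv ℂ ((fun q => G q b) ∘ e.symm) z =
          (fderiv ℂ (fun q => G q b) (e.symm z)).comp (fderiv ℂ e.symm z) :=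
        fderiv_comp z (hGa _ h1 b).differentiableAt h3.differentiableAt
      show fderiv ℂ ((fun q => G q b) ∘ e.symm) z (Pi.single 1 1) = _
      rw [this]
      rfl
    -- `Ψ ∘ e.symm = id` near `z`
    have hid : (fun z => G (e.symm z) a) =ᶠ[𝓝 z] fun z => z 0 := by
      filter_upwards [Metric.isOpen_ball.mem_nhds hz] with w hw
      have := congrFun (hbase w hw).2.1 0
      exact this
    have ha0 : fderiv ℂ (fun q => G q a) (e.symm z) v = 0 := by
      rw [← hcomp a, hid.fderiv_eq]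
      have : fderiv ℂ (fun z : Cm 2 => z 0) z =
          (ContinuousLinearMap.proj (R := ℂ) (φ := fun _ : Fin 2 => ℂ) 0) :=
        (ContinuousLinearMap.proj (R := ℂ) (φ := fun _ : Fin 2 => ℂ) 0).fderiv (x := z)
      rw [this]
      simp
    rw [hcomp b]
    -- linear algebra
    obtain ⟨u, hu0, hu⟩ := hrk _ h1
    have hu' : ∀ b, fderiv ℂ (fun q => G q b) (e.symm z) u = 0 := by
      intro b
      rw [fderiv_apply' (hG _ h1).differentiableAt, hu]
      rfl
    have hlin : ∀ (b : Fin n) (w : Cm 2), fderiv ℂ (fun q => G q b) (e.symm z) w =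
        w i * fderiv ℂ (fun q => G q b) (e.symm z) (Pi.single i 1) +
          w j * fderiv ℂ (fun q => G q b) (e.symm z) (Pi.single j 1) := by
      intro b w
      conv_lhs => rw [hj w]
      rw [map_add, map_smul, map_smul, smul_eq_mul, smul_eq_mul]
    have huj : u j ≠ 0 := by
      intro h0
      have h5 := hu' a
      rw [hlin, h0, zero_mul, add_zero] at h5
      have h6 : u i = 0 := (mul_eq_zero.1 h5).resolve_right h4
      apply hu0
      rw [hj u, h0, h6, zero_smul, zero_smul, add_zero]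
    have hA := hu' a
    have hBb := hu' b
    rw [hlin] at hA hBb ha0 ⊢
    set A0 := fderiv ℂ (fun q => G q a) (e.symm z) (Pi.single i 1)
    set A1 := fderiv ℂ (fun q => G q a) (e.symm z) (Pi.single j 1)
    set B0 := fderiv ℂ (fun q => G q b) (e.symm z) (Pi.single i 1)
    set B1 := fderiv ℂ (fun q => G q b) (e.symm z) (Pi.single j 1)
    have h7 : A0 * u j * (v i * B0 + v j * B1) = 0 := by
      linear_combination (v j * A0) * hBb + (u j * B0) * ha0 - (v j * B0) * hA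
    exact (mul_eq_zero.1 h7).resolve_left (mul_ne_zero h4 huj)
  -- so the map depends only on the first variable
  have hball : ∀ z ∈ Metric.ball z₀ ρ, ∀ t ∈ Metric.ball (z₀ 1) ρ, ![z 0, t] ∈ Metric.ball z₀ ρ := by
    intro z hz t ht
    rw [Metric.mem_ball, dist_pi_lt_iff hρ] at hz ⊢
    intro k
    fin_cases k
    · exact hz 0
    · exact ht
  have hconst : ∀ z ∈ Metric.ball z₀ ρ, g (e.symm z) = g (e.symm ![z 0, z₀ 1]) := by
    intro z hz
    have hz1 : z 1 ∈ Metric.ball (z₀ 1) ρ := by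
      rw [Metric.mem_ball, dist_pi_lt_iff hρ] at hz
      exact hz 1
    have hm := hball z hz _ (Metric.mem_ball_self hρ)
    refine hφ (hgV _ (hbase z hz).1) (hgV _ (hbase _ hm).1) ?_
    show G (e.symm z) = G (e.symm ![z 0, z₀ 1])
    ext b
    -- one variable function
    let u : ℂ → ℂ := fun t => G (e.symm ![z 0, t]) b
    have hud : ∀ t ∈ Metric.ball (z₀ 1) ρ, HasDerivAt u 0 t := by
      intro t ht
      have hm := hball z hz t ht
      obtain ⟨h1, h2, h3, h4⟩ := hbase _ hm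
      have h5 : DifferentiableAt ℂ (fun z => G (e.symm z) b) ![z 0, t] :=
        ((hGa _ h1 b).comp h3).differentiableAt
      have h6 : HasDerivAt (fun t : ℂ => (![z 0, t] : Cm 2)) (Pi.single 1 1) t := by
        rw [hasDerivAt_pi]
        intro k
        fin_cases k
        · simpa using hasDerivAt_const t (z 0)
        · simpa using hasDerivAt_id' t
      have h7 := h5.hasFDerivAt.comp_hasDerivAt t h6
      rw [hder _ hm b] at h7
      exact h7
    have huconst := Metric.isOpen_ball.is_const_of_deriv_eq_zero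
      (convex_ball (z₀ 1) ρ).isPreconnected
      (fun t ht => (hud t ht).differentiableAt.differentiableWithinAt)
      (fun t ht => (hud t ht).deriv) hz1 (Metric.mem_ball_self hρ)
    have hz' : (![z 0, z 1] : Cm 2) = z := by
      ext k; fin_cases k <;> rfl
    simp only [u, hz'] at huconst
    exact huconst
  -- conclusion
  refine ⟨e.source ∩ e ⁻¹' Metric.ball z₀ ρ, e.isOpen_inter_preimage Metric.isOpen_ball,
    ⟨hpe, ?_⟩, ?_, ?_⟩
  · show e p ∈ Metric.ball z₀ ρ
    rw [he]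
    exact Metric.mem_ball_self hρ
  · rintro q ⟨hq, hq'⟩
    have := (hbase _ hq').1
    rwa [e.left_inv hq] at this
  · let γ : Cm 1 → Cm 2 := fun s => ![s 0, z₀ 1]
    have hγan : ∀ s, AnalyticAt ℂ γ s := by
      intro s
      refine AnalyticAt.pi fun k => ?_
      fin_cases k
      · exact (ContinuousLinearMap.proj (R := ℂ) (φ := fun _ : Fin 1 => ℂ) 0).analyticAt s
      · exact analyticAt_const
    have hγo : IsOpen (γ ⁻¹' Metric.ball z₀ ρ) :=
      Metric.isOpen_ball.preimage (continuous_iff_continuousAt.2 fun s => (hγan s).continuousAt)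
    refine ⟨fun _ => γ ⁻¹' Metric.ball z₀ ρ, fun _ => g ∘ (e.symm ∘ γ), fun _ => hγo, fun _ s hs => ?_,
      ?_⟩
    · refine HolAt.comp (hg _ (hbase _ hs).1) ?_
      exact AnalyticAt.comp (hbase _ hs).2.2.1 (hγan s)
    · rintro _ ⟨q, ⟨hq, hq'⟩, rfl⟩
      refine mem_iUnion.2 ⟨0, fun _ => (e q) 0, ?_, ?_⟩
      · exact hball _ hq' _ (Metric.mem_ball_self hρ)
      · have := hconst _ hq'
        rw [e.left_inv hq] at this
        exact this.symm

/-- Maps of rank at most one of two variables have one-dimensional image. -/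
theorem dimLe_one_of_rank [Nonempty X.pt] (hB1 : StB1) {n : ℕ} {V : Set X.pt} {φ : X.pt → Cm n}
    (hφ : InjOn φ V) {c : Cm 2} {r : ℝ} {g : Cm 2 → X.pt}
    (hg : ∀ p ∈ Metric.ball c r, HolAt X g p) (hgV : ∀ p ∈ Metric.ball c r, g p ∈ V)
    (hG : ∀ p ∈ Metric.ball c r, AnalyticAt ℂ (fun q => φ (g q)) p)
    (hrk : ∀ p ∈ Metric.ball c r, ∃ v : Cm 2, v ≠ 0 ∧ fderiv ℂ (fun q => φ (g q)) p v = 0) :
    DimLe X 1 (g '' Metric.ball c r) := by
  by_cases hall : ∀ p ∈ Metric.ball c r, ∀ (a : Fin n) (i : Fin 2),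
      fderiv ℂ (fun q => φ (g q) a) p (Pi.single i 1) = 0
  · -- constant map
    have hconst : ∀ p ∈ Metric.ball c r, ∀ q ∈ Metric.ball c r, g p = g q := by
      intro p hp q hq
      refine hφ (hgV p hp) (hgV q hq) ?_
      refine Metric.isOpen_ball.is_const_of_fderiv_eq_zero (𝕜 := ℂ)
        (f := fun q => φ (g q)) (convex_ball c r).isPreconnected
        (fun z hz => (hG z hz).differentiableAt.differentiableWithinAt) (fun z hz => ?_) hp hq
      ext v a
      have h1 := fderiv_apply' (hG z hz).differentiableAt a v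
      rw [← h1, fderiv_two, hall z hz a 0, hall z hz a 1]
      simp
    rcases (Metric.ball c r).eq_empty_or_nonempty with h0 | ⟨p₀, hp₀⟩
    · rw [h0, image_empty]
      exact dimLe_empty
    · refine (dimLe_singleton (g p₀)).mono ?_
      rintro _ ⟨p, hp, rfl⟩
      exact hconst p hp p₀ hp₀
  · push Not at hall
    obtain ⟨p₀, hp₀, a, i, hai⟩ := hall
    have hFan : ∀ p ∈ Metric.ball c r,
        AnalyticAt ℂ (fun p => fderiv ℂ (fun q => φ (g q) a) p (Pi.single i 1)) p := by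
      intro p hp
      have h1 : AnalyticAt ℂ (fderiv ℂ (fun q => φ (g q) a)) p :=
        (analyticAt_apply (hG p hp) a).fderiv
      exact ((ContinuousLinearMap.apply ℂ ℂ (Pi.single i 1 : Cm 2)).analyticAt _).comp h1
    have h1 := dimLe_image_zeros hB1 hg hFan ⟨p₀, hp₀, hai⟩
    have h2 : DimLe X 1 (g '' {p | p ∈ Metric.ball c r ∧
        fderiv ℂ (fun q => φ (g q) a) p (Pi.single i 1) ≠ 0}) := by
      refine dimLe_image_of_local fun p hp => ?_
      obtain ⟨N, hN, hpN, -, hd⟩ := rank_one_local hφ Metric.isOpen_ball hg hgV hG hrk hp.1 hp.2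
      exact ⟨N, hN, hpN, hd.mono (image_mono inter_subset_left)⟩
    refine (h1.union h2).mono ?_
    rintro _ ⟨p, hp, rfl⟩
    by_cases h : fderiv ℂ (fun q => φ (g q) a) p (Pi.single i 1) = 0
    · exact Or.inl ⟨p, ⟨hp, h⟩, rfl⟩
    · exact Or.inr ⟨p, ⟨hp, h⟩, rfl⟩

/-- extension of an injective derivative to an isomorphism -/
theorem exists_complement {T : Cm 2 →L[ℂ] Cm 4} (hT : Function.Injective T) :
    ∃ x y : Cm 4, ∀ w : Cm 4, w 0 • x + w 1 • y + T ![w 2, w 3] = 0 → w = 0 := by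
  have h2 : LinearIndependent ℂ (![T (Pi.single 0 1), T (Pi.single 1 1)] : Fin 2 → Cm 4) := by
    rw [LinearIndependent.pair_iff]
    intro s t hst
    have h1 : T (s • (Pi.single 0 1 : Cm 2) + t • Pi.single 1 1) = 0 := by
      rw [map_add, map_smul, map_smul]
      exact hst
    have h3 := (injective_iff_map_eq_zero T).1 hT _ h1
    constructor
    · simpa using congrFun h3 0
    · simpa using congrFun h3 1
  have hfr : Module.finrank ℂ (Cm 4) = 4 := by simp
  obtain ⟨y, hy⟩ := exists_linearIndependent_cons_of_lt_finrank h2 (by rw [hfr]; norm_num)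
  obtain ⟨x, hx⟩ := exists_linearIndependent_cons_of_lt_finrank hy (by rw [hfr]; norm_num)
  refine ⟨x, y, fun w hw => ?_⟩
  have h3 := (Fintype.linearIndependent_iff.1 hx) w (by
    rw [Fin.sum_univ_four]
    have h4 : T ![w 2, w 3] = w 2 • T (Pi.single 0 1) + w 3 • T (Pi.single 1 1) := by
      rw [← map_smul, ← map_smul, ← map_add]
      congr 1
      ext k; fin_cases k <;> simp
    rw [h4] at hw
    rw [← hw]
    show w 0 • x + w 1 • y + w 2 • T (Pi.single 0 1) + w 3 • T (Pi.single 1 1) = _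
    abel)
  ext k
  exact h3 k

theorem isReg_of_mem {V : Set X.pt} {Ω : Set (Cm 4)} {h : Fin 0 → Cm 4 → ℂ} {φ : X.pt → Cm 4}
    (hM : IsModel X.Hol V Ω h φ) {x : X.pt} (hx : x ∈ V) : IsReg 4 X x :=
  ⟨V, Ω, h, φ, hx, hM⟩

theorem stTA (hB1 : StB1) : StTA := by
  intro X S hSan hS2 hS1 hsing
  have : Nonempty X.pt := hS2.nonempty
  -- charts and equations
  have key : ∀ x : {x // IsReg 4 X x}, ∃ (U V : Set X.pt) (Ω : Set (Cm 4)) (h : Fin 0 → Cm 4 → ℂ)
      (φ : X.pt → Cm 4) (k : ℕ) (f : Fin k → X.pt → ℂ), x.1 ∈ U ∧ IsOpen U ∧ U ⊆ V ∧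
      IsModel X.Hol V Ω h φ ∧ (∀ i, ∀ y ∈ U, X.Hol (f i) y) ∧ ∀ y ∈ U, (y ∈ S ↔ ∀ i, f i y = 0) := by
    rintro ⟨x, V, Ω, h, φ, hx, hM⟩
    obtain ⟨k, f, hf, hfS⟩ := hSan x (mem_univ x)
    have h1 : ∀ᶠ y in 𝓝 x, y ∈ V ∧ (∀ i, X.Hol (f i) y) ∧ (y ∈ S ↔ ∀ i, f i y = 0) :=
      (hM.isOpen.eventually_mem hx).and
        ((eventually_all.2 fun i => hol_eventually (hf i)).and hfS)
    obtain ⟨U, hU, hUo, hxU⟩ := eventually_nhds_iff.1 h1
    exact ⟨U, V, Ω, h, φ, k, f, hxU, hUo, fun y hy => (hU y hy).1, hM, fun i y hy => (hU y hy).2.1 i,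
      fun y hy => (hU y hy).2.2⟩
  choose U V Ω h φ k f hxU hUo hUV hM hf hfS using key
  -- the regular part is not one-dimensional
  have hSR : ¬ DimLe X 1 (S ∩ {x | IsReg 4 X x}) := by
    intro hcon
    apply hS1
    refine (hcon.union hsing).mono fun x hx => ?_
    by_cases hr : IsReg 4 X x
    · exact Or.inl ⟨hx, hr⟩
    · exact Or.inr hr
  obtain ⟨κ, hκ, c, r, g, i, hr, hg, hgU, hcov⟩ :=
    (hS2.mono (inter_subset_left (t := {x | IsReg 4 X x}))).refine (U := U) hUo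
      (fun x hx => mem_iUnion.2 ⟨⟨x, hx.2⟩, hxU _⟩)
  -- one of the pieces is not one-dimensional
  have hpiece : ∃ a, ¬ DimLe X 1 (S ∩ g a '' Metric.ball (c a) (r a)) := by
    by_contra hcon
    push Not at hcon
    apply hSR
    refine (dimLe_iUnion hcon).mono fun x hx => ?_
    obtain ⟨a, ha⟩ := mem_iUnion.1 (hcov hx)
    exact mem_iUnion.2 ⟨a, hx.1, ha⟩
  obtain ⟨a, ha⟩ := hpiece
  have hga : ∀ p ∈ Metric.ball (c a) (r a), HolAt X (g a) p := fun p hp =>
    hg a p (Metric.ball_subset_closedBall hp)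
  have hgaU : ∀ p ∈ Metric.ball (c a) (r a), g a p ∈ U (i a) := fun p hp =>
    hgU a p (Metric.ball_subset_closedBall hp)
  -- the piece is contained in `S`
  have hsub : ∀ p ∈ Metric.ball (c a) (r a), ∀ l, f (i a) l (g a p) = 0 := by
    by_contra hcon
    push Not at hcon
    obtain ⟨p, hp, l, hl⟩ := hcon
    apply ha
    refine (dimLe_image_zeros hB1 hga (F := fun q => f (i a) l (g a q))
      (fun q hq => (hga q hq).analyticAt (hf _ _ _ (hgaU q hq))) ⟨p, hp, hl⟩).mono ?_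
    rintro _ ⟨hxS, q, hq, rfl⟩
    exact ⟨q, ⟨hq, (hfS _ _ (hgaU q hq)).1 hxS l⟩, rfl⟩
  have hgS : ∀ p ∈ Metric.ball (c a) (r a), g a p ∈ S := fun p hp =>
    (hfS _ _ (hgaU p hp)).2 (hsub p hp)
  have hgV : ∀ p ∈ Metric.ball (c a) (r a), g a p ∈ V (i a) := fun p hp => hUV _ (hgaU p hp)
  have hG : ∀ p ∈ Metric.ball (c a) (r a), AnalyticAt ℂ (fun q => φ (i a) (g a q)) p := by
    intro p hp
    exact AnalyticAt.pi fun b => (hga p hp).analyticAt ((hM (i a)).isCoord.hol b _ (hgV p hp))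
  -- a point where the rank is two
  have hrk : ∃ p ∈ Metric.ball (c a) (r a),
      Function.Injective (fderiv ℂ (fun q => φ (i a) (g a q)) p) := by
    by_contra hcon
    push Not at hcon
    apply ha
    refine (dimLe_one_of_rank hB1 (hM (i a)).injOn hga hgV hG fun p hp => ?_).mono inter_subset_right
    have h1 := hcon p hp
    rw [injective_iff_map_eq_zero] at h1
    push Not at h1
    obtain ⟨v, hv, hv0⟩ := h1
    exact ⟨v, hv0, hv⟩
  obtain ⟨p, hp, hinj⟩ := hrk
  set φ₀ := φ (i a) with hφ₀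
  set G : Cm 2 → Cm 4 := fun q => φ₀ (g a q) with hGdef
  obtain ⟨x, y, hxy⟩ := exists_complement hinj
  obtain ⟨ψ, hψ1, hψ2, hψ3, hψ4⟩ := exists_chartInv (hM (i a)) ⟨_, hgV p hp⟩
  -- the straightened map
  let P : Cm 4 →L[ℂ] Cm 2 := ContinuousLinearMap.pi
    ![ContinuousLinearMap.proj 2, ContinuousLinearMap.proj 3]
  have hP : ∀ w, P w = ![w 2, w 3] := by
    intro w
    ext k; fin_cases k <;> rfl
  let Ψ : Cm 4 → Cm 4 := fun w => w 0 • x + w 1 • y + G (p + P w)
  have hproj : ∀ (k : Fin 4) (w : Cm 4), AnalyticAt ℂ (fun w : Cm 4 => w k) w := fun k w =>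
    (ContinuousLinearMap.proj (R := ℂ) (φ := fun _ : Fin 4 => ℂ) k).analyticAt w
  have haff : ∀ w : Cm 4, AnalyticAt ℂ (fun w => p + P w) w := fun w =>
    analyticAt_const.add (P.analyticAt w)
  have hΨan : ∀ w, p + P w ∈ Metric.ball (c a) (r a) → AnalyticAt ℂ Ψ w := by
    intro w hw
    refine (((hproj 0 w).smul analyticAt_const).add ((hproj 1 w).smul analyticAt_const)).add ?_
    exact AnalyticAt.fun_comp (hG _ hw) (haff w)
  have hp0 : p + P 0 ∈ Metric.ball (c a) (r a) := by simpa using hp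
  have hΨd : ∀ w, fderiv ℂ Ψ 0 w = w 0 • x + w 1 • y + fderiv ℂ G p ![w 2, w 3] := by
    intro w
    have h0 : HasFDerivAt (fun w : Cm 4 => w 0 • x)
        ((ContinuousLinearMap.proj (R := ℂ) (φ := fun _ : Fin 4 => ℂ) 0).smulRight x) 0 :=
      ((ContinuousLinearMap.proj (R := ℂ) (φ := fun _ : Fin 4 => ℂ) 0).smulRight x).hasFDerivAt
    have h1 : HasFDerivAt (fun w : Cm 4 => w 1 • y)
        ((ContinuousLinearMap.proj (R := ℂ) (φ := fun _ : Fin 4 => ℂ) 1).smulRight y) 0 :=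
      ((ContinuousLinearMap.proj (R := ℂ) (φ := fun _ : Fin 4 => ℂ) 1).smulRight y).hasFDerivAt
    have h2 : HasFDerivAt (fun w => p + P w) P 0 := P.hasFDerivAt.const_add p
    have h3 : HasFDerivAt G (fderiv ℂ G p) (p + P 0) := by
      have h5 : p + P 0 = p := by simp
      rw [h5]
      exact (hG p hp).differentiableAt.hasFDerivAt
    have h4 := h3.comp (0 : Cm 4) h2
    have h6 := ((h0.add h1).add h4).fderiv
    have h7 : fderiv ℂ Ψ 0 = _ := h6
    rw [h7]
    simp [hP]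
  have hΨinj : Function.Injective (fderiv ℂ Ψ 0) := by
    rw [injective_iff_map_eq_zero]
    intro w hw
    rw [hΨd] at hw
    exact hxy w hw
  obtain ⟨e, he, h0e, -, hesymm⟩ := exists_localInv (hΨan 0 hp0) hΨinj
  -- the radius
  have hΨ0 : Ψ 0 = G p := by simp [Ψ]
  have hnb : ∀ᶠ w in 𝓝 (0 : Cm 4), w ∈ e.source ∧ Ψ w ∈ Ω (i a) ∧
      p + P w ∈ Metric.ball (c a) (r a) := by
    refine (e.open_source.eventually_mem h0e).and (Eventually.and ?_ ?_)
    · refine (hΨan 0 hp0).continuousAt.eventually ?_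
      refine (hM (i a)).isOpen'.mem_nhds ?_
      rw [hΨ0]
      exact (hψ2 _ (hgV p hp)).1
    · exact (haff 0).continuousAt.eventually (Metric.isOpen_ball.mem_nhds hp0)
  obtain ⟨ρ, hρ, hρ'⟩ := Metric.eventually_nhds_iff_ball.1 hnb
  have hxi : ∀ w ∈ Metric.ball (0 : Cm 4) ρ, φ₀ (ψ (Ψ w)) = Ψ w := fun w hw =>
    (hψ1 _ (hρ' w hw).2.1).2
  refine ⟨ψ ∘ Ψ, ρ, hρ, ?_, ?_, ?_, ?_⟩
  · intro w hw w' hw' hww
    have h1 : Ψ w = Ψ w' := by
      rw [← hxi w hw, ← hxi w' hw']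
      exact congrArg φ₀ hww
    rw [← he] at h1
    exact e.injOn (hρ' w hw).1 (hρ' w' hw').1 h1
  · intro W hW hWo
    have h1 : (ψ ∘ Ψ) '' W = V (i a) ∩ φ₀ ⁻¹' (Ψ '' W) := by
      ext z
      constructor
      · rintro ⟨w, hw, rfl⟩
        exact ⟨(hψ1 _ (hρ' w (hW hw)).2.1).1, w, hw, (hxi w (hW hw)).symm⟩
      · rintro ⟨hz, w, hw, hzw⟩
        refine ⟨w, hw, ?_⟩
        show ψ (Ψ w) = z
        rw [hzw]
        exact (hψ2 z hz).2
    rw [h1]
    refine (hM (i a)).continuousOn.isOpen_inter_preimage (hM (i a)).isOpen ?_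
    rw [← he]
    exact e.isOpen_image_of_subset_source hWo fun w hw => (hρ' w (hW hw)).1
  · intro w hw
    obtain ⟨h1, h2, h3⟩ := hρ' w hw
    refine ⟨(hψ3 _ h2).1.comp (hΨan w h3).continuousAt, fun F => ?_⟩
    show X.Hol F (ψ (Ψ w)) ↔ _
    rw [hψ4 _ h2 F]
    constructor
    · intro hF
      exact AnalyticAt.comp (g := F ∘ ψ) (f := Ψ) hF (hΨan w h3)
    · intro hF
      have h4 : Ψ w ∈ e.target := by
        rw [← he]; exact e.map_source h1
      have h5 : e.symm (Ψ w) = w := by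
        rw [← he]; exact e.left_inv h1
      have h6 : AnalyticAt ℂ ((F ∘ (ψ ∘ Ψ)) ∘ e.symm) (Ψ w) := by
        refine AnalyticAt.comp ?_ (hesymm _ h4)
        rw [h5]; exact hF
      refine h6.congr ?_
      filter_upwards [e.open_target.mem_nhds h4] with z hz
      have h7 := e.right_inv hz
      rw [he] at h7
      simp only [Function.comp_apply, h7]
  · intro w hw hw0 hw1
    obtain ⟨h1, h2, h3⟩ := hρ' w hw
    have h4 : Ψ w = φ₀ (g a (p + P w)) := by simp [Ψ, hw0, hw1, hGdef]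
    show ψ (Ψ w) ∈ S
    rw [h4, (hψ2 _ (hgV _ h3)).2]
    exact hgS _ h3

end Vale.Agent.P277.H73
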