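import Vale.Agent.P277.H73.C
import Vale.Agent.P277.H73.TA
import Vale.Agent.P277.H622.B1

/-!
# P277: packages C and TA, final form
-/

namespace Vale.Agent.P277.H73

theorem stC1_final : StC1' := stC1' H622.stB1

theorem stTA_final : StTA := stTA H622.stB1

end Vale.Agent.P277.H73
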