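import Vale.Agent.P277.Stmts
import Mathlib.Analysis.Analytic.Uniqueness
import Mathlib.Topology.Compactness.Lindelof
import Mathlib.MeasureTheory.Measure.Lebesgue.EqHaar

/-!
# P277, package C: generic sections
-/

open scoped Manifold ContDiff Topology
open Vale.Agent.P272.K Vale.Agent.P285.H281.FD Set

noncomputable section

namespace Vale.Agent.P277.H73

/-! ### dimension calculus -/

theorem dimLe_mono {X : CSp} {d : ℕ} {S T : Set X.pt} (h : DimLe X d T) (hST : S ⊆ T) :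
    DimLe X d S := by
  obtain ⟨Ω, g, h1, h2, h3⟩ := h
  exact ⟨Ω, g, h1, h2, hST.trans h3⟩

/-- countable families with any countable index type -/
theorem dimLe_of_countable {X : CSp} {d : ℕ} {S : Set X.pt} {I : Type*} [Countable I] [Nonempty I]
    (Ω : I → Set (Cm d)) (g : I → Cm d → X.pt) (h1 : ∀ k, IsOpen (Ω k))
    (h2 : ∀ k, ∀ p ∈ Ω k, HolAt X (g k) p) (h3 : S ⊆ ⋃ k, g k '' Ω k) : DimLe X d S := by
  obtain ⟨e, he⟩ := exists_surjective_nat I
  refine ⟨fun n => Ω (e n), fun n => g (e n), fun n => h1 _, fun n => h2 _, ?_⟩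
  intro x hx
  obtain ⟨k, hk⟩ := mem_iUnion.1 (h3 hx)
  obtain ⟨n, rfl⟩ := he k
  exact mem_iUnion.2 ⟨n, hk⟩

theorem holAt_const (X : CSp) {d : ℕ} (x : X.pt) (p : Cm d) : HolAt X (fun _ => x) p :=
  ⟨continuousAt_const, fun _ _ => analyticAt_const⟩

theorem dimLe_singleton (X : CSp) (d : ℕ) (x : X.pt) : DimLe X d {x} := by
  refine ⟨fun _ => univ, fun _ _ => x, fun _ => isOpen_univ, fun _ p _ => holAt_const X x p, ?_⟩
  rintro y rfl
  exact mem_iUnion.2 ⟨0, ⟨0, mem_univ _, rfl⟩⟩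

theorem dimLe_iUnion {X : CSp} {d : ℕ} {I : Type*} [Countable I] [Nonempty I] {S : I → Set X.pt}
    (h : ∀ k, DimLe X d (S k)) : DimLe X d (⋃ k, S k) := by
  choose Ω g h1 h2 h3 using h
  refine dimLe_of_countable (I := I × ℕ) (fun a => Ω a.1 a.2) (fun a => g a.1 a.2)
    (fun a => h1 _ _) (fun a => h2 _ _) ?_
  intro x hx
  obtain ⟨k, hk⟩ := mem_iUnion.1 hx
  obtain ⟨n, hn⟩ := mem_iUnion.1 (h3 k hk)
  exact mem_iUnion.2 ⟨(k, n), hn⟩

theorem dimLe_union {X : CSp} {d : ℕ} {S T : Set X.pt} (hS : DimLe X d S) (hT : DimLe X d T) :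
    DimLe X d (S ∪ T) := by
  rw [union_eq_iUnion]
  exact dimLe_iUnion (fun b => by cases b <;> assumption)

theorem holAt_comp {X : CSp} {d e : ℕ} {g : Cm d → X.pt} {h : Cm e → Cm d} {p : Cm e}
    (hg : HolAt X g (h p)) (hh : AnalyticAt ℂ h p) : HolAt X (g ∘ h) p :=
  ⟨hg.1.comp hh.continuousAt, fun f hf => (hg.2 f hf).comp hh⟩

/-- Refinement of the countable family in `DimLe`: all pieces are balls mapped into members of a
given open cover of the open set `V`. -/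
theorem dimLe_refine {X : CSp} {d : ℕ} {S V : Set X.pt} (h : DimLe X d S) (hV : IsOpen V)
    (hSV : S ⊆ V) {ι : Type*} (U : ι → Set X.pt) (hU : ∀ i, IsOpen (U i))
    (hc : ∀ x ∈ V, ∃ i, x ∈ U i) :
    ∃ (I : Type) (_ : Countable I) (c : I → Cm d) (r : I → ℝ) (g : I → Cm d → X.pt) (i : I → ι),
      (∀ a, 0 < r a) ∧ (∀ a, ∀ p ∈ Metric.ball (c a) (r a), HolAt X (g a) p ∧ g a p ∈ V ∧
        g a p ∈ U (i a)) ∧ S ⊆ ⋃ a, g a '' Metric.ball (c a) (r a) := by
  obtain ⟨Ω, g, h1, h2, h3⟩ := h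
  -- for every point choose a ball
  have key : ∀ k : ℕ, ∀ p : {p : Cm d // p ∈ Ω k ∧ g k p ∈ V}, ∃ (r : ℝ) (i : ι), 0 < r ∧
      ∀ q ∈ Metric.ball p.1 r, HolAt X (g k) q ∧ g k q ∈ V ∧ g k q ∈ U i := by
    rintro k ⟨p, hp, hpV⟩
    obtain ⟨i, hi⟩ := hc _ hpV
    have hcont : ContinuousAt (g k) p := (h2 k p hp).1
    have hnb : (g k) ⁻¹' (V ∩ U i) ∩ Ω k ∈ 𝓝 p :=
      Filter.inter_mem (hcont.preimage_mem_nhds ((hV.inter (hU i)).mem_nhds ⟨hpV, hi⟩))
        ((h1 k).mem_nhds hp)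
    obtain ⟨r, hr, hsub⟩ := Metric.mem_nhds_iff.1 hnb
    exact ⟨r, i, hr, fun q hq => ⟨h2 k q (hsub hq).2, (hsub hq).1.1, (hsub hq).1.2⟩⟩
  choose r i hr hri using key
  -- Lindelöf
  have hL : ∀ k : ℕ, ∃ T : Set {p : Cm d // p ∈ Ω k ∧ g k p ∈ V}, T.Countable ∧
      ⋃ p ∈ T, Metric.ball p.1 (r k p) = ⋃ p, Metric.ball p.1 (r k p) := fun k =>
    TopologicalSpace.isOpen_iUnion_countable _ (fun p => Metric.isOpen_ball)
  choose T hT hTU using hL
  refine ⟨Σ k : ℕ, T k, ?_, fun a => a.2.1.1, fun a => r a.1 a.2.1, fun a => g a.1,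
    fun a => i a.1 a.2.1, fun a => hr _ _, fun a p hp => hri a.1 a.2.1 p hp, ?_⟩
  · have : ∀ k, Countable (T k) := fun k => (hT k).to_subtype
    infer_instance
  · intro x hx
    obtain ⟨k, hk⟩ := mem_iUnion.1 (h3 hx)
    obtain ⟨p, hp, rfl⟩ := hk
    have hpV : g k p ∈ V := hSV hx
    have : p ∈ ⋃ q ∈ T k, Metric.ball q.1 (r k q) := by
      rw [hTU k]
      exact mem_iUnion.2 ⟨⟨p, hp, hpV⟩, Metric.mem_ball_self (hr _ _)⟩
    obtain ⟨q, hq, hpq⟩ := mem_iUnion₂.1 this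
    exact mem_iUnion.2 ⟨⟨k, q, hq⟩, ⟨p, hpq, rfl⟩⟩

/-- dimension `0` means countable -/
theorem countable_of_dimLe_zero {X : CSp} {S : Set X.pt} (h : DimLe X 0 S) : S.Countable := by
  obtain ⟨Ω, g, -, -, h3⟩ := h
  refine (countable_iUnion fun k => ?_).mono h3
  exact (((Set.subsingleton_of_subsingleton (s := Ω k)).countable).image _)

theorem dimLe_zero_of_countable {X : CSp} {S : Set X.pt} (hX : Nonempty X.pt) (h : S.Countable) :
    DimLe X 0 S := by
  obtain ⟨x₀⟩ := hX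
  rcases S.eq_empty_or_nonempty with rfl | hne
  · exact dimLe_mono (dimLe_singleton X 0 x₀) (empty_subset _)
  · obtain ⟨e, rfl⟩ := h.exists_eq_range hne
    refine dimLe_mono (dimLe_iUnion fun n => dimLe_singleton X 0 (e n)) ?_
    rintro x ⟨n, rfl⟩
    exact mem_iUnion.2 ⟨n, rfl⟩

/-- (C2) countably many proper subspaces do not cover. -/
theorem stC2 : StC2 := by
  intro M H hH
  by_contra hcon
  push Not at hcon
  have hcov : (univ : Set (Fin M → ℂ)) ⊆ ⋃ k, (H k : Set (Fin M → ℂ)) := by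
    intro w _
    obtain ⟨k, hk⟩ := hcon w
    exact mem_iUnion.2 ⟨k, hk⟩
  have h0 : ∀ k, MeasureTheory.volume ((H k).restrictScalars ℝ : Set (Fin M → ℂ)) = 0 := by
    intro k
    refine MeasureTheory.Measure.addHaar_submodule _ _ ?_
    intro htop
    exact hH k ((Submodule.restrictScalars_eq_top_iff ℝ ℂ (Fin M → ℂ)).1 htop)
  have h1 : MeasureTheory.volume (univ : Set (Fin M → ℂ)) = 0 :=
    MeasureTheory.measure_mono_null hcov (MeasureTheory.measure_iUnion_null h0)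
  exact (MeasureTheory.Measure.measure_univ_pos.2 (NeZero.ne _)).ne' h1

/-- (C1), with `M ≠ 0` (for `M = 0` there is no proper subspace). -/
def StC1' : Prop :=
  ∀ (X : CSp) (P : Bd X.pt) (_ : IsLBx X P) (V : Set X.pt) (_ : IsOpen V) (M : ℕ) (_ : M ≠ 0)
    (u : Fin M → P.ι → X.pt → ℂ) (_ : ∀ m, IsSecx X V P (u m)) (d : ℕ) (S : Set X.pt) (_ : S ⊆ V)
    (_ : DimLe X (d + 1) S) (x₀ : X.pt) (_ : ∀ x ∈ S, x ≠ x₀ → ∃ m i, x ∈ P.U i ∧ u m i x ≠ 0),
    ∃ H : ℕ → Submodule ℂ (Fin M → ℂ), (∀ k, H k ≠ ⊤) ∧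
      ∀ w, (∀ k, w ∉ H k) → DimLe X d (S ∩ Zs P (lin w u))

theorem lin_change {X : CSp} {P : Bd X.pt} {V : Set X.pt} {M : ℕ} {u : Fin M → P.ι → X.pt → ℂ}
    (hu : ∀ m, IsSecx X V P (u m)) (w : Fin M → ℂ) {i j : P.ι} {x : X.pt} (hx : x ∈ V)
    (hi : x ∈ P.U i) (hj : x ∈ P.U j) : lin w u i x = P.g i j x * lin w u j x := by
  simp only [lin, Finset.mul_sum]
  refine Finset.sum_congr rfl fun m _ => ?_
  rw [(hu m).change i j x hx hi hj]
  ring

theorem stC1' (hB1 : StB1) : StC1' := by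
  intro X P hP V hV M hM u hu d S hSV hS x₀ hx₀
  obtain ⟨I, hI, c, r, g, i, hr, hg, hcov⟩ := dimLe_refine hS hV hSV P.U hP.isOpen
    (fun x _ => hP.cover x)
  classical
  have : NeZero M := ⟨hM⟩
  -- the subspaces
  let K : I → Submodule ℂ (Fin M → ℂ) := fun a =>
    { carrier := {w | ∀ p ∈ Metric.ball (c a) (r a), lin w u (i a) (g a p) = 0}
      add_mem' := by
        intro w w' hw hw' p hp
        have h1 := hw p hp
        have h2 := hw' p hp
        simp only [lin, Pi.add_apply, add_mul, Finset.sum_add_distrib] at h1 h2 ⊢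
        rw [h1, h2, add_zero]
      zero_mem' := by
        intro p hp
        simp [lin]
      smul_mem' := by
        intro t w hw p hp
        have h1 := hw p hp
        simp only [lin, Pi.smul_apply, smul_eq_mul, mul_assoc, ← Finset.mul_sum] at h1 ⊢
        rw [h1, mul_zero] }
  have hbot : (⊥ : Submodule ℂ (Fin M → ℂ)) ≠ ⊤ := bot_ne_top
  rcases isEmpty_or_nonempty I with hIe | hIn
  · refine ⟨fun _ => ⊥, fun _ => hbot, fun w _ => ?_⟩
    obtain ⟨Ω, g', -, -, -⟩ := hS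
    refine dimLe_mono (dimLe_singleton X d (g' 0 0)) ?_
    intro x hx
    obtain ⟨a, -⟩ := mem_iUnion.1 (hcov hx.1)
    exact (hIe.false a).elim
  obtain ⟨e, he⟩ := exists_surjective_nat I
  refine ⟨fun n => if K (e n) = ⊤ then ⊥ else K (e n), fun n => ?_, fun w hw => ?_⟩
  · show (if K (e n) = ⊤ then ⊥ else K (e n)) ≠ ⊤
    by_cases h : K (e n) = ⊤
    · rw [if_pos h]; exact hbot
    · rw [if_neg h]; exact h
  -- reduction to one piece
  have hsub : S ∩ Zs P (lin w u) ⊆ ⋃ a, (S ∩ Zs P (lin w u) ∩ g a '' Metric.ball (c a) (r a)) := by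
    intro x hx
    obtain ⟨a, ha⟩ := mem_iUnion.1 (hcov hx.1)
    exact mem_iUnion.2 ⟨a, hx, ha⟩
  refine dimLe_mono (dimLe_iUnion fun a => ?_) hsub
  obtain ⟨n, rfl⟩ := he a
  set a := e n with ha
  by_cases hK : K a = ⊤
  · -- all sections vanish on the piece
    refine dimLe_mono (dimLe_singleton X d x₀) ?_
    rintro x ⟨⟨hxS, -⟩, p, hp, rfl⟩
    by_contra hne
    obtain ⟨m, j, hj, hne'⟩ := hx₀ _ hxS hne
    have hmem : (Pi.single m 1 : Fin M → ℂ) ∈ K a := by rw [hK]; trivial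
    have h0 : lin (Pi.single m 1) u (i a) (g a p) = 0 := hmem p hp
    have h1 : lin (Pi.single m 1) u (i a) (g a p) = u m (i a) (g a p) := by
      simp only [lin]
      rw [Finset.sum_eq_single m]
      · simp
      · intro b _ hb
        simp [hb]
      · simp
    obtain ⟨-, h3, h4⟩ := hg a p hp
    apply hne'
    rw [(hu m).change j (i a) _ h3 hj h4, ← h1, h0, mul_zero]
  · -- the zero set is covered by B1
    have hwK : w ∉ K a := by
      have := hw n
      simp only [← ha] at this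
      rwa [if_neg hK] at this
    set F : Cm (d + 1) → ℂ := fun p => lin w u (i a) (g a p) with hF
    have hFan : AnalyticOnNhd ℂ F (Metric.ball (c a) (r a)) := by
      intro p hp
      obtain ⟨h2, h3, h4⟩ := hg a p hp
      simp only [hF, lin]
      refine Finset.analyticAt_fun_sum _ fun m _ => ?_
      exact analyticAt_const.mul (h2.2 _ ((hu m).holo _ _ h3 h4))
    have hnz : ∀ z ∈ Metric.ball (c a) (r a), ¬ F =ᶠ[𝓝 z] 0 := by
      intro z hz hcon
      apply hwK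
      have := hFan.eqOn_of_preconnected_of_eventuallyEq (g := 0)
        (fun _ _ => analyticAt_const) (convex_ball _ _).isPreconnected hz hcon
      exact fun p hp => this hp
    obtain ⟨W, G, hW, hG, hGcov⟩ := hB1 d (Metric.ball (c a) (r a)) F Metric.isOpen_ball hFan hnz
    refine ⟨W, fun k => g a ∘ G k, hW, fun k p hp => ?_, ?_⟩
    · exact holAt_comp (hg a _ (hG k p hp).2).1 (hG k p hp).1
    · rintro x ⟨⟨hxS, j, hj, hxj⟩, p, hp, rfl⟩
      obtain ⟨-, h3, h4⟩ := hg a p hp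
      have hFp : F p = 0 := by
        simp only [hF]
        rw [lin_change hu w h3 h4 hj, hxj, mul_zero]
      obtain ⟨k, q, hq, hqp⟩ := mem_iUnion.1 (hGcov ⟨hp, hFp⟩)
      exact mem_iUnion.2 ⟨k, ⟨q, hq, by simp only [Function.comp_apply, hqp]⟩⟩

end Vale.Agent.P277.H73
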